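import Mathlib

/-!
P193, module W3: a finite synchronous rule on a one-sided tape which shows every word of a
computable sequence infinitely often.
-/

namespace Vale.Agent.P193.Machine

/-- A synchronous local rule on a one-sided tape. The left neighbour of the first cell is `none`,
and a missing right neighbour is read as a blank. -/
structure EnumRule (β : Type) where
  /-- The symbols. -/
  α : Type
  [fintype : Fintype α]
  [decEq : DecidableEq α]
  /-- The symbol of the cells not yet used. -/
  blank : α
  /-- The symbol of the first cell at time `0`. -/
  start : α
  /-- The rule, from the left neighbour, the cell and the right neighbour. -/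
  step : Option α → α → Option α → α
  /-- The mark, on the first cell, of the rows showing a word. -/
  emit : α → Bool
  /-- The letter shown by a cell. -/
  read : α → Option β

attribute [instance] EnumRule.fintype EnumRule.decEq

namespace EnumRule

variable {β : Type} (R : EnumRule β)

/-- The rows of the run. -/
def row : ℕ → ℕ → R.α
  | 0, i => if i = 0 then R.start else R.blank
  | t + 1, i => R.step (if i = 0 then none else some (row t (i - 1))) (row t i)
      (some (row t (i + 1)))

/-- A row shows a word on its first cells, ended by a cell showing no letter. -/
def Shows (r : ℕ → R.α) (w : List β) : Prop :=
  ∀ i, i ≤ w.length → R.read (r i) = w[i]?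

/-- The rule enumerates the words of `e`, each infinitely often, and nothing else. -/
structure Enumerates (e : ℕ → List β) : Prop where
  /-- A missing right neighbour is read as a blank. -/
  step_none : ∀ l a, R.step l a none = R.step l a (some R.blank)
  /-- A blank between blanks stays blank. -/
  step_blank : R.step (some R.blank) R.blank (some R.blank) = R.blank
  /-- Blanks show nothing. -/
  read_blank : R.read R.blank = none
  /-- At time `t` the cells after `t` are unused. -/
  fresh : ∀ t i, t < i → R.row t i = R.blank
  /-- The mark only occurs on the first cell. -/
  emit_first : ∀ t i, R.emit (R.row t i) = true → i = 0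
  /-- A marked row shows some word of the sequence, no longer than the time. -/
  sound : ∀ t, R.emit (R.row t 0) = true → ∃ n, (e n).length ≤ t ∧ R.Shows (R.row t) (e n)
  /-- Each word is shown at arbitrarily late times. -/
  complete : ∀ n T, ∃ t, T ≤ t ∧ R.emit (R.row t 0) = true ∧ R.Shows (R.row t) (e n)

end EnumRule

/-- Module W3. -/
def EnumStatement : Prop :=
  ∀ (β : Type) [Fintype β] [Primcodable β] (e : ℕ → List β), Computable e →
    ∃ R : EnumRule β, R.Enumerates e

end Vale.Agent.P193.Machine
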