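import Vale.Agent.P193.Machine.Program

/-!
P193, module W3: every computable sequence of words over a finite alphabet is shown infinitely often
by some finite synchronous rule.
-/

namespace Vale.Agent.P193.Machine

open Turing Turing.PartrecToTM2

/-- The machine on a set of states closed under the transition. -/
def Prog.restrict {K Q Γ : Type} (P : Prog K Q Γ) (L : Set Q) (h0 : P.start ∈ L)
    (hcl : ∀ q T, q ∈ L → (P.next q T).1 ∈ L) : Prog K L Γ :=
  ⟨⟨P.start, h0⟩, fun q T => (⟨(P.next q.1 T).1, hcl q.1 T q.2⟩, (P.next q.1 T).2)⟩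

theorem Prog.restrict_cfg {K Q Γ : Type} (P : Prog K Q Γ) (L : Set Q) (h0 : P.start ∈ L)
    (hcl : ∀ q T, q ∈ L → (P.next q T).1 ∈ L) :
    ∀ k, P.cfg k = (((P.restrict L h0 hcl).cfg k).1.1, ((P.restrict L h0 hcl).cfg k).2)
  | 0 => rfl
  | k + 1 => by
    show P.stepFn (P.cfg k) = _
    rw [P.restrict_cfg L h0 hcl k]
    rfl

variable {b : ℕ} (code : ToPartrec.Code)

/-- The states the machine uses. -/
def live (b : ℕ) : Set (Ctl b)
  | Ctl.run q _ => some q ∈ TM2.stmts tr (codeSupp code Cont'.halt)
  | _ => True

theorem live_finite (b : ℕ) : (live code b).Finite := by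
  let W := {q : Stmt' // some q ∈ TM2.stmts tr (codeSupp code Cont'.halt)}
  have hfin : Finite W :=
    Finite.of_injective (β := {o // o ∈ TM2.stmts tr (codeSupp code Cont'.halt)})
      (fun q : W => ⟨some q.1, q.2⟩) fun a c h =>
        Subtype.ext (Option.some.inj (congrArg Subtype.val h))
  let f : W × Option Γ' → Ctl b := fun p => Ctl.run p.1.1 p.2
  refine Set.Finite.subset ((Set.finite_range f).union
    (((Set.finite_range (Ctl.conv : Fin (b + 1) → Ctl b)).insert Ctl.boot).union
      (Set.toFinite ({Ctl.flip, Ctl.wait, Ctl.shown, Ctl.clear} : Set (Ctl b))))) ?_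
  intro c hc
  cases c with
  | boot => exact Or.inr (Or.inl (Set.mem_insert _ _))
  | run q v => exact Or.inl ⟨(⟨q, hc⟩, v), rfl⟩
  | conv j => exact Or.inr (Or.inl (Set.mem_insert_of_mem _ ⟨j, rfl⟩))
  | flip => exact Or.inr (Or.inr (by simp))
  | wait => exact Or.inr (Or.inr (by simp))
  | shown => exact Or.inr (Or.inr (by simp))
  | clear => exact Or.inr (Or.inr (by simp))

theorem mem_stmts {l : Λ'} (h : l ∈ codeSupp code Cont'.halt) :
    some (tr l) ∈ TM2.stmts tr (codeSupp code Cont'.halt) := by
  classical
  exact Finset.some_mem_insertNone.2 (Finset.mem_biUnion.2 ⟨l, h, TM2.stmts₁_self⟩)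

theorem live_next (c : Ctl b) (T : Idx → Option (Letter b)) (hc : c ∈ live code b) :
    (next code c T).1 ∈ live code b := by
  have hentry : some (tr (entry code)) ∈ TM2.stmts tr (codeSupp code Cont'.halt) :=
    mem_stmts code (codeSupp_self _ _ (trStmts₁_self _))
  have htrans : ∀ {q q' : Stmt'}, q ∈ TM2.stmts₁ q' →
      some q' ∈ TM2.stmts tr (codeSupp code Cont'.halt) →
      some q ∈ TM2.stmts tr (codeSupp code Cont'.halt) := fun h h' => TM2.stmts_trans h h'
  cases c with
  | boot => exact hentry
  | conv j =>
    simp only [next]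
    split <;> exact trivial
  | flip =>
    simp only [next]
    split <;> exact trivial
  | wait =>
    simp only [next]
    split <;> exact trivial
  | shown => exact trivial
  | clear =>
    simp only [next]
    split
    · exact trivial
    · exact hentry
  | run q v =>
    have hq : some q ∈ TM2.stmts tr (codeSupp code Cont'.halt) := hc
    cases q with
    | push k f q =>
      exact htrans (q := q) (by
        classical
        exact Finset.mem_insert_of_mem TM2.stmts₁_self) hq
    | peek k f q =>
      exact htrans (q := q) (by
        classical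
        exact Finset.mem_insert_of_mem TM2.stmts₁_self) hq
    | pop k f q =>
      exact htrans (q := q) (by
        classical
        exact Finset.mem_insert_of_mem TM2.stmts₁_self) hq
    | load a q =>
      exact htrans (q := q) (by
        classical
        exact Finset.mem_insert_of_mem TM2.stmts₁_self) hq
    | branch f q₁ q₂ =>
      refine htrans ?_ hq
      classical
      cases f v
      · exact Finset.mem_insert_of_mem (Finset.mem_union_right _ TM2.stmts₁_self)
      · exact Finset.mem_insert_of_mem (Finset.mem_union_left _ TM2.stmts₁_self)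
    | goto f =>
      have hs := @TM2.stmts_supportsStmt _ _ _ _ ⟨trNormal code Cont'.halt⟩ _ _ _
        (tr_supports code Cont'.halt) hq
      exact mem_stmts code (hs v)
    | halt => exact trivial

/-- The sequence of digit strings as positive numbers. -/
def pack (w : List (Fin b)) : PosNum :=
  w.foldr (fun a p => PosNum.bit1^[a.1] (PosNum.bit0 p)) PosNum.one

/-- The same numbers. -/
def packNat (w : List (Fin b)) : ℕ :=
  w.foldr (fun a p => (fun x => x + x + 1)^[a.1] (p + p)) 1

theorem cast_pack : ∀ w : List (Fin b), (pack w : ℕ) = packNat w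
  | [] => PosNum.cast_one
  | a :: w => by
    show ((PosNum.bit1^[a.1] (PosNum.bit0 (pack w)) : PosNum) : ℕ) = _
    show _ = (fun x => x + x + 1)^[a.1] (packNat w + packNat w)
    rw [← cast_pack w]
    induction a.1 with
    | zero => exact PosNum.cast_bit0 _
    | succ j ih =>
      rw [Function.iterate_succ_apply', Function.iterate_succ_apply', ← ih, PosNum.cast_bit1]

theorem trPosNum_pack : ∀ w : List (Fin b), trPosNum (pack w) = digits w ++ [Γ'.bit1]
  | [] => rfl
  | a :: w => by
    show trPosNum (PosNum.bit1^[a.1] (PosNum.bit0 (pack w))) = _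
    have key : ∀ (j : ℕ) (p : PosNum),
        trPosNum (PosNum.bit1^[j] p) = List.replicate j Γ'.bit1 ++ trPosNum p := by
      intro j p
      induction j with
      | zero => rfl
      | succ j ih => rw [Function.iterate_succ_apply', trPosNum, ih, List.replicate_succ,
          List.cons_append]
    rw [key, trPosNum, trPosNum_pack w]
    simp [digits, List.append_assoc]

theorem trNat_packNat (w : List (Fin b)) : trNat (packNat w) = digits w ++ [Γ'.bit1] := by
  rw [trNat, ← cast_pack, ← trPosNum_pack]
  have e : (((pack w : ℕ)) : Num) = Num.pos (pack w) := by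
    rw [← Num.of_to_nat (Num.pos (pack w))]
    rfl
  rw [e]
  rfl

theorem packNat_computable {γ : Type} [Primcodable γ] (f : γ → Fin b) (hf : Primrec f) :
    Computable fun w : List γ => packNat (w.map f) := by
  have hval : Primrec fun a : γ => (f a).1 := Primrec.fin_val.comp hf
  have hstep : Primrec₂ fun (_ : List γ) (p : γ × ℕ) =>
      (fun x => x + x + 1)^[(f p.1).1] (p.2 + p.2) := by
    refine Primrec.nat_iterate ((hval.comp (Primrec.fst.comp Primrec.snd)))
      ((Primrec.nat_add.comp (Primrec.snd.comp Primrec.snd) (Primrec.snd.comp Primrec.snd))) ?_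
    exact (Primrec.succ.comp (Primrec.nat_add.comp Primrec.snd Primrec.snd)).to₂
  refine ((Primrec.list_foldr Primrec.id (Primrec.const 1) hstep).of_eq fun w => ?_).to_comp
  simp only [packNat, List.foldr_map, id_eq]

/-- Some code gives the next word and the next index. -/
theorem exists_decoding {γ : Type} [Primcodable γ] [Finite γ] (f : γ → Fin b) (e : ℕ → List γ)
    (he : Computable e) :
    ∃ c : ToPartrec.Code, Decodes c fun m => (e m.unpair.1).map f := by
  have hw : Computable fun m : ℕ => packNat ((e m.unpair.1).map f) :=
    (packNat_computable f (Primrec.dom_finite f)).comp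
      (he.comp (Computable.fst.comp Computable.unpair))
  have hp : @Nat.Partrec' 1 fun v => Part.some (packNat ((e v.head.unpair.1).map f)) :=
    Nat.Partrec'.part_iff₁.2 hw
  obtain ⟨c, hc⟩ := ToPartrec.Code.exists_code hp
  refine ⟨ToPartrec.Code.cons c ToPartrec.Code.succ, fun m => ?_⟩
  refine ⟨packNat ((e m.unpair.1).map f), ?_, trNat_packNat _⟩
  have h := hc ⟨[m], rfl⟩
  rw [show (⟨[m], rfl⟩ : List.Vector ℕ 1).1 = [m] from rfl] at h
  simp [ToPartrec.Code.eval, h, List.Vector.head]

/-- Module W3. -/
theorem enumStatement : EnumStatement := by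
  intro β _ _ e he
  classical
  let eq := Fintype.equivFin β
  let b := Fintype.card β
  obtain ⟨code, hcode⟩ := exists_decoding (b := b) eq e he
  have hs : (prog code b).start ∈ live code b := trivial
  have hcl : ∀ q T, q ∈ live code b → ((prog code b).next q T).1 ∈ live code b :=
    fun q T h => live_next code q T h
  let P := (prog code b).restrict (live code b) hs hcl
  have : Fintype (live code b) := (live_finite code b).fintype
  let dec : Letter b → Option β := fun g => g.getRight?.map eq.symm
  refine ⟨P.toRule (Sum.inr Extra.out) (fun q => mark q.1) dec,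
    Prog.toRule_enumerates P _ _ _ (fun a => Sum.inr (eq a)) (fun a => by simp [dec]) e ?_ ?_⟩
  · intro k hk
    have heq := Prog.restrict_cfg (prog code b) _ hs hcl
    obtain ⟨m, hm⟩ := prog_sound hcode k (by rw [heq k]; exact hk)
    refine ⟨m.unpair.1, fun j hj1 hj2 => ?_⟩
    have h := hm j (by simpa using hj1) hj2
    rw [heq j] at h
    simpa [Function.comp_def] using h
  · intro n T
    have heq := Prog.restrict_cfg (prog code b) _ hs hcl
    obtain ⟨k, hk, hmk, hm⟩ := prog_complete hcode (Nat.pair n T)
    refine ⟨k, (Nat.right_le_pair n T).trans hk, by rw [heq k] at hmk; exact hmk,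
      fun j hj1 hj2 => ?_⟩
    have h := hm j (by simpa using hj1) hj2
    rw [heq j] at h
    simpa [Function.comp_def] using h

end Vale.Agent.P193.Machine
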