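import Vale.Agent.P193.Machine.Systolic

/-!
P193, module W3: a machine with finitely many stacks which evaluates a code at `0, 1, 2, …`, decodes
each value as a word and holds it on a stack.
-/

namespace Vale.Agent.P193.Machine

open Turing Turing.PartrecToTM2

instance fintypeStack : Fintype Turing.PartrecToTM2.K' :=
  ⟨{K'.main, K'.rev, K'.aux, K'.stack}, fun x => by cases x <;> simp⟩

/-- The stacks besides those of the evaluator. -/
inductive Extra
  | tmp
  | out
  | cnt
  deriving DecidableEq

instance : Fintype Extra := ⟨{Extra.tmp, Extra.out, Extra.cnt}, fun x => by cases x <;> simp⟩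

/-- All stacks. -/
abbrev Idx : Type := K' ⊕ Extra

/-- The symbols on the stacks. -/
abbrev Letter (b : ℕ) : Type := Γ' ⊕ Fin b

/-- The states. -/
inductive Ctl (b : ℕ) : Type
  | boot
  | run (q : Stmt') (v : Option Γ')
  | conv (j : Fin (b + 1))
  | flip
  | wait
  | shown
  | clear

variable {b : ℕ}

/-- The evaluator symbol of a top. -/
def getL : Option (Letter b) → Option Γ'
  | some (Sum.inl x) => some x
  | _ => none

theorem getL_map (l : List Γ') :
    getL ((l.map (Sum.inl : Γ' → Letter b))[0]?) = l.head? := by
  cases l <;> rfl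

/-- No command. -/
def idle : Idx → Cmd (Letter b) := fun _ => Cmd.keep

/-- A command to one stack. -/
def one (k : Idx) (c : Cmd (Letter b)) : Idx → Cmd (Letter b) := Function.update idle k c

/-- Count one more unary digit. -/
def inc (j : Fin (b + 1)) : Fin (b + 1) := ⟨min (j.1 + 1) b, by omega⟩

/-- The label at which a round starts. -/
def entry (code : ToPartrec.Code) : Λ' := trNormal code Cont'.halt

/-- The transition. -/
def next (code : ToPartrec.Code) :
    Ctl b → (Idx → Option (Letter b)) → Ctl b × (Idx → Cmd (Letter b))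
  | Ctl.boot, _ =>
    (Ctl.run (tr (entry code)) none, one (Sum.inl K'.main) (Cmd.push (Sum.inl Γ'.cons)))
  | Ctl.run (TM2.Stmt.push k f q) v, _ =>
    (Ctl.run q v, one (Sum.inl k) (Cmd.push (Sum.inl (f v))))
  | Ctl.run (TM2.Stmt.peek k f q) v, T => (Ctl.run q (f v (getL (T (Sum.inl k)))), idle)
  | Ctl.run (TM2.Stmt.pop k f q) v, T =>
    (Ctl.run q (f v (getL (T (Sum.inl k)))), one (Sum.inl k) Cmd.pop)
  | Ctl.run (TM2.Stmt.load a q) v, _ => (Ctl.run q (a v), idle)
  | Ctl.run (TM2.Stmt.branch f q₁ q₂) v, _ => (Ctl.run (cond (f v) q₁ q₂) v, idle)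
  | Ctl.run (TM2.Stmt.goto f) v, _ => (Ctl.run (tr (f v)) v, idle)
  | Ctl.run TM2.Stmt.halt _, _ => (Ctl.conv 0, idle)
  | Ctl.conv j, T =>
    match getL (T (Sum.inl K'.main)) with
    | some Γ'.bit1 => (Ctl.conv (inc j), one (Sum.inl K'.main) Cmd.pop)
    | some Γ'.bit0 => (Ctl.conv 0, Function.update (one (Sum.inl K'.main) Cmd.pop)
        (Sum.inr Extra.tmp)
        (if h : j.1 < b then Cmd.push (Sum.inr ⟨j.1, h⟩) else Cmd.keep))
    | _ => (Ctl.flip, one (Sum.inl K'.main) Cmd.pop)
  | Ctl.flip, T =>
    match T (Sum.inr Extra.tmp) with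
    | some x => (Ctl.flip, fun k => match k with
      | Sum.inr Extra.tmp => Cmd.pop
      | Sum.inr Extra.out => Cmd.push x
      | Sum.inr Extra.cnt => Cmd.push x
      | Sum.inl _ => Cmd.keep)
    | none => (Ctl.wait, idle)
  | Ctl.wait, T =>
    match T (Sum.inr Extra.cnt) with
    | some _ => (Ctl.wait, one (Sum.inr Extra.cnt) Cmd.pop)
    | none => (Ctl.shown, idle)
  | Ctl.shown, _ => (Ctl.clear, idle)
  | Ctl.clear, T =>
    match T (Sum.inr Extra.out) with
    | some _ => (Ctl.clear, one (Sum.inr Extra.out) Cmd.pop)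
    | none => (Ctl.run (tr (entry code)) none, idle)

/-- The machine. -/
def prog (code : ToPartrec.Code) (b : ℕ) : Prog Idx (Ctl b) (Letter b) := ⟨Ctl.boot, next code⟩

/-- The marked state. -/
def mark : Ctl b → Bool
  | Ctl.shown => true
  | _ => false

/-- The configurations. -/
abbrev Conf (b : ℕ) : Type := Ctl b × (Idx → List (Letter b))

/-- The stacks from their contents. -/
def stk (S : K' → List Γ') (t o n : List (Letter b)) : Idx → List (Letter b)
  | Sum.inl k => (S k).map Sum.inl
  | Sum.inr Extra.tmp => t
  | Sum.inr Extra.out => o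
  | Sum.inr Extra.cnt => n

/-- The main stack alone. -/
def only (l : List Γ') : K' → List Γ' := K'.elim l [] [] []

theorem apply_idle (A : Idx → List (Letter b)) (x : Idx) : (idle x).apply (A x) = A x := rfl

theorem apply_one (k : Idx) (c : Cmd (Letter b)) (A : Idx → List (Letter b)) :
    (fun x => (one k c x).apply (A x)) = Function.update A k (c.apply (A k)) := by
  funext x
  by_cases h : x = k
  · subst h
    simp [one]
  · simp [one, h, idle, Cmd.apply]

theorem stk_update (S : K' → List Γ') (k : K') (l : List Γ') (t o n : List (Letter b)) :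
    Function.update (stk S t o n) (Sum.inl k) (l.map Sum.inl) =
      stk (Function.update S k l) t o n := by
  funext x
  cases x with
  | inl j =>
    by_cases h : j = k
    · subst h
      simp [stk]
    · simp [stk, h]
  | inr e => cases e <;> simp [stk]

variable (code : ToPartrec.Code)

/-- One step. -/
def stp (A : Conf b) : Conf b := (prog code b).stepFn A

theorem cfg_iterate (k : ℕ) :
    (prog code b).cfg k = (stp code)^[k] ((prog code b).start, fun _ => []) := by
  induction k with
  | zero => rfl
  | succ k ih =>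
    rw [Function.iterate_succ_apply', ← ih]
    rfl

/-- Steps without a mark. -/
def Runs (n : ℕ) (A B : Conf b) : Prop :=
  (stp code)^[n] A = B ∧ ∀ j, j < n → mark ((stp code)^[j] A).1 = false

/-- A number of steps without a mark. -/
def Goes (A B : Conf b) : Prop := ∃ n, Runs code n A B

variable {code}

theorem Runs.trans {n m : ℕ} {A B C : Conf b} (h₁ : Runs code n A B) (h₂ : Runs code m B C) :
    Runs code (n + m) A C := by
  refine ⟨by rw [add_comm, Function.iterate_add_apply, h₁.1, h₂.1], fun j hj => ?_⟩
  rcases Nat.lt_or_ge j n with h | h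
  · exact h₁.2 j h
  · rw [show j = (j - n) + n by omega, Function.iterate_add_apply, h₁.1]
    exact h₂.2 _ (by omega)

theorem Goes.refl (A : Conf b) : Goes code A A := ⟨0, rfl, fun j hj => absurd hj (Nat.not_lt_zero j)⟩

theorem Goes.trans {A B C : Conf b} (h₁ : Goes code A B) (h₂ : Goes code B C) : Goes code A C := by
  obtain ⟨n, hn⟩ := h₁
  obtain ⟨m, hm⟩ := h₂
  exact ⟨n + m, hn.trans hm⟩

theorem Goes.step {A B C : Conf b} (h : stp code A = B) (hA : mark A.1 = false)
    (h₂ : Goes code B C) : Goes code A C :=
  Goes.trans ⟨1, h, fun j hj => by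
    obtain rfl : j = 0 := by omega
    exact hA⟩ h₂

/-- The machine at a configuration of the evaluator. -/
def conf : Cfg' → Conf b
  | ⟨some l, v, S⟩ => (Ctl.run (tr l) v, stk S [] [] [])
  | ⟨none, _, S⟩ => (Ctl.conv 0, stk S [] [] [])

/-- One statement of the evaluator. -/
theorem goes_stmt : ∀ (q : Stmt') (v : Option Γ') (S : K' → List Γ'),
    Goes code (Ctl.run q v, stk S [] [] []) (conf (b := b) (TM2.stepAux q v S)) := by
  intro q
  induction q with
  | push k f q ih =>
    intro v S
    refine Goes.step ?_ rfl (ih v _)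
    show (Ctl.run q v, fun x => (one _ _ x).apply (stk S [] [] [] x)) = _
    rw [apply_one]
    refine congrArg (Prod.mk (Ctl.run q v)) ?_
    exact stk_update S k (f v :: S k) [] [] []
  | peek k f q ih =>
    intro v S
    refine Goes.step ?_ rfl (ih _ S)
    show (Ctl.run q (f v (getL (((S k).map Sum.inl)[0]?))), _) = _
    rw [getL_map]
    rfl
  | pop k f q ih =>
    intro v S
    refine Goes.step ?_ rfl (ih _ _)
    show (Ctl.run q (f v (getL (((S k).map Sum.inl)[0]?))),
      fun x => (one _ _ x).apply (stk S [] [] [] x)) = _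
    rw [getL_map, apply_one]
    refine congrArg (Prod.mk _) ?_
    rw [← stk_update S k (S k).tail [] [] []]
    exact congrArg _ (List.map_tail).symm
  | load a q ih =>
    intro v S
    exact Goes.step rfl rfl (ih (a v) S)
  | branch f q₁ q₂ ih₁ ih₂ =>
    intro v S
    refine Goes.step rfl rfl ?_
    show Goes code (Ctl.run (cond (f v) q₁ q₂) v, stk S [] [] []) _
    rw [TM2.stepAux]
    cases f v
    · exact ih₂ v S
    · exact ih₁ v S
  | goto f =>
    intro v S
    exact Goes.step rfl rfl (Goes.refl _)
  | halt =>
    intro v S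
    exact Goes.step rfl rfl (Goes.refl _)

theorem goes_reaches {a c : Cfg'} (h : StateTransition.Reaches (TM2.step tr) a c) :
    Goes code (conf (b := b) a) (conf c) := by
  induction h using Relation.ReflTransGen.head_induction_on with
  | refl => exact Goes.refl _
  | @head x y hxy _ ih =>
    obtain ⟨l, v, S⟩ := x
    cases l with
    | none => cases hxy
    | some l =>
      cases hxy
      exact (goes_stmt (tr l) v S).trans ih

/-- The digits of a word. -/
def digits (w : List (Fin b)) : List Γ' :=
  w.flatMap fun a => List.replicate a.1 Γ'.bit1 ++ [Γ'.bit0]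

theorem only_update (l l' : List Γ') : Function.update (only l) K'.main l' = only l' :=
  K'.elim_update_main

theorem step_conv {g : Γ'} {rest : List Γ'} (t : List (Letter b)) {c : Cmd (Letter b)} :
    (fun x => (Function.update (one (Sum.inl K'.main) Cmd.pop) (Sum.inr Extra.tmp) c x).apply
      (stk (only (g :: rest)) t [] [] x)) = stk (only rest) (c.apply t) [] [] := by
  funext x
  rcases x with k | e
  · cases k <;> simp [one, idle, stk, only, Cmd.apply]
  · cases e <;> simp [one, idle, stk, Cmd.apply]

theorem step_pop {g : Γ'} {rest : List Γ'} (t : List (Letter b)) :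
    (fun x => (one (Sum.inl K'.main) Cmd.pop x).apply (stk (only (g :: rest)) t [] [] x)) =
      stk (only rest) t [] [] := by
  rw [apply_one]
  refine Eq.trans ?_ ((stk_update (only (g :: rest)) K'.main rest t [] []).trans
    (by rw [only_update]))
  rfl

theorem goes_ones : ∀ (a : ℕ) (j : Fin (b + 1)) (rest : List Γ') (t : List (Letter b)),
    (hb : j.1 + a ≤ b) →
    Goes code (Ctl.conv j, stk (only (List.replicate a Γ'.bit1 ++ rest)) t [] [])
      (Ctl.conv ⟨j.1 + a, by omega⟩, stk (only rest) t [] [])
  | 0, j, rest, t, _ => by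
    exact Goes.refl _
  | a + 1, j, rest, t, hb => by
    refine Goes.step (B := (Ctl.conv (inc j),
      stk (only (List.replicate a Γ'.bit1 ++ rest)) t [] [])) ?_ rfl ?_
    · show (Ctl.conv (inc j), fun x => (one _ _ x).apply (stk _ t [] [] x)) = _
      rw [List.replicate_succ, List.cons_append, step_pop]
    · have e : (inc j).1 = j.1 + 1 := by simp only [inc]; omega
      have hf : (⟨(inc j).1 + a, by omega⟩ : Fin (b + 1)) = ⟨j.1 + (a + 1), by omega⟩ :=
        Fin.ext (by show (inc j).1 + a = j.1 + (a + 1); omega)
      rw [← hf]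
      exact goes_ones a (inc j) rest t (by omega)

theorem goes_digits : ∀ (w : List (Fin b)) (rest : List Γ') (t : List (Letter b)),
    Goes code (Ctl.conv 0, stk (only (digits w ++ rest)) t [] [])
      (Ctl.conv 0, stk (only rest) ((w.map Sum.inr).reverse ++ t) [] [])
  | [], rest, t => Goes.refl _
  | a :: w, rest, t => by
    have e : digits (a :: w) ++ rest =
        List.replicate a.1 Γ'.bit1 ++ (Γ'.bit0 :: (digits w ++ rest)) := by
      simp [digits, List.append_assoc]
    rw [e]
    refine (goes_ones a.1 0 _ t (by simp [a.2.le])).trans ?_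
    refine Goes.step (B := (Ctl.conv 0, stk (only (digits w ++ rest)) (Sum.inr a :: t) [] []))
      ?_ rfl ?_
    · show ((Ctl.conv 0 : Ctl b), fun x =>
        (Function.update (one (Sum.inl K'.main) Cmd.pop) (Sum.inr Extra.tmp) _ x).apply
          (stk _ t [] [] x)) = _
      rw [step_conv, dif_pos (by simp [a.2])]
      simp [Cmd.apply]
    · refine (goes_digits w rest (Sum.inr a :: t)).trans ?_
      rw [List.map_cons, List.reverse_cons, List.append_assoc]
      exact Goes.refl _

/-- A word read off the main stack. -/
theorem goes_conv (w : List (Fin b)) (rest : List Γ') :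
    Goes code (Ctl.conv 0, stk (only (digits w ++ Γ'.bit1 :: Γ'.cons :: rest)) [] [] [])
      (Ctl.flip, stk (only rest) (w.map Sum.inr).reverse [] []) := by
  refine (goes_digits w _ []).trans ?_
  rw [List.append_nil]
  refine Goes.step (B := (Ctl.conv (inc 0),
    stk (only (Γ'.cons :: rest)) (w.map Sum.inr).reverse [] [])) ?_ rfl ?_
  · show ((Ctl.conv (inc 0) : Ctl b), fun x => (one _ _ x).apply (stk _ _ [] [] x)) = _
    rw [step_pop]
  · refine Goes.step ?_ rfl (Goes.refl _)
    show ((Ctl.flip : Ctl b), fun x => (one _ _ x).apply (stk _ _ [] [] x)) = _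
    rw [step_pop]

theorem goes_flip : ∀ (S : K' → List Γ') (t o n : List (Letter b)),
    Goes code (Ctl.flip, stk S t o n) (Ctl.wait, stk S [] (t.reverse ++ o) (t.reverse ++ n))
  | S, [], o, n => Goes.step rfl rfl (Goes.refl _)
  | S, x :: t, o, n => by
    refine Goes.step (B := (Ctl.flip, stk S t (x :: o) (x :: n))) ?_ rfl ?_
    · show ((Ctl.flip : Ctl b), _) = _
      refine congrArg (Prod.mk _) (funext fun k => ?_)
      rcases k with k | e
      · rfl
      · cases e <;> rfl
    · refine (goes_flip S t (x :: o) (x :: n)).trans ?_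
      simp only [List.reverse_cons, List.append_assoc, List.singleton_append]
      exact Goes.refl _

/-- The pause before the mark. -/
theorem runs_wait : ∀ (S : K' → List Γ') (o n : List (Letter b)),
    Runs code (n.length + 1) (Ctl.wait, stk S [] o n) (Ctl.shown, stk S [] o []) ∧
      ∀ j, j ≤ n.length + 1 →
        ((stp code)^[j] (Ctl.wait, stk S [] o n)).2 (Sum.inr Extra.out) = o
  | S, o, [] => by
    refine ⟨⟨rfl, fun j hj => ?_⟩, fun j hj => ?_⟩
    · obtain rfl : j = 0 := by simpa using hj
      rfl
    · simp only [List.length_nil, zero_add] at hj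
      interval_cases j <;> rfl
  | S, o, x :: n => by
    have hstep : stp code ((Ctl.wait : Ctl b), stk S [] o (x :: n)) =
        (Ctl.wait, stk S [] o n) := by
      show ((Ctl.wait : Ctl b), _) = _
      refine congrArg (Prod.mk _) (funext fun k => ?_)
      rcases k with k | e
      · rfl
      · cases e <;> rfl
    obtain ⟨⟨h1, h2⟩, h3⟩ := runs_wait S o n
    refine ⟨⟨?_, fun j hj => ?_⟩, fun j hj => ?_⟩
    · rw [List.length_cons, Function.iterate_succ_apply, hstep]
      exact h1
    · cases j with
      | zero => rfl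
      | succ j =>
        rw [Function.iterate_succ_apply, hstep]
        exact h2 j (by simp only [List.length_cons] at hj; omega)
    · cases j with
      | zero => rfl
      | succ j =>
        rw [Function.iterate_succ_apply, hstep]
        exact h3 j (by simp only [List.length_cons] at hj; omega)

theorem goes_clear : ∀ (S : K' → List Γ') (o : List (Letter b)),
    Goes code (Ctl.clear, stk S [] o []) (Ctl.run (tr (entry code)) none, stk S [] [] [])
  | S, [] => Goes.step rfl rfl (Goes.refl _)
  | S, x :: o => by
    refine Goes.step (B := (Ctl.clear, stk S [] o [])) ?_ rfl (goes_clear S o)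
    show ((Ctl.clear : Ctl b), _) = _
    refine congrArg (Prod.mk _) (funext fun k => ?_)
    rcases k with k | e
    · rfl
    · cases e <;> rfl

variable (code) in
/-- The configuration starting the round `m`. -/
def roundStart (b m : ℕ) : Conf b :=
  (Ctl.run (tr (entry code)) none, stk (only (trList [m])) [] [] [])

/-- The value of the code at `m` is the word `g m`. -/
def Decodes (code : ToPartrec.Code) (g : ℕ → List (Fin b)) : Prop :=
  ∀ m, ∃ N, code.eval [m] = pure [N, m + 1] ∧ trNat N = digits (g m) ++ [Γ'.bit1]

/-- One round. -/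
theorem round {g : ℕ → List (Fin b)} (hg : Decodes code g) (m : ℕ) :
    ∃ d n, d < n ∧ (stp code)^[n] (roundStart code b m) = roundStart code b (m + 1) ∧
      mark ((stp code)^[d] (roundStart code b m)).1 = true ∧
      (∀ j, j < n → j ≠ d → mark ((stp code)^[j] (roundStart code b m)).1 = false) ∧
      (g m).length ≤ d ∧
      ∀ j, d - (g m).length ≤ j → j ≤ d →
        ((stp code)^[j] (roundStart code b m)).2 (Sum.inr Extra.out) = (g m).map Sum.inr := by
  obtain ⟨N, he, hN⟩ := hg m
  have hev : PartrecToTM2.halt [N, m + 1] ∈ StateTransition.eval (TM2.step tr)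
      (PartrecToTM2.init code [m]) := by
    rw [tr_eval, he]
    exact Part.mem_map _ (Part.mem_some _)
  have hreach := goes_reaches (code := code) (b := b) (StateTransition.mem_eval.1 hev).1
  have hmain : trList [N, m + 1] = digits (g m) ++ Γ'.bit1 :: Γ'.cons :: trList [m + 1] := by
    show trNat N ++ _ :: trList [m + 1] = _
    rw [hN, List.append_assoc]
    rfl
  set w : List (Letter b) := (g m).map Sum.inr with hw
  have h1 : Goes code (roundStart code b m) (Ctl.wait, stk (only (trList [m + 1])) [] w w) := by
    refine (hreach : Goes code (roundStart code b m)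
      (Ctl.conv 0, stk (only (trList [N, m + 1])) [] [] [])).trans ?_
    show Goes code (Ctl.conv 0, stk (only (trList [N, m + 1])) [] [] []) _
    rw [hmain]
    refine (goes_conv (g m) _).trans ((goes_flip _ _ [] []).trans ?_)
    rw [List.reverse_reverse, List.append_nil]
    exact Goes.refl _
  obtain ⟨n₁, hn₁⟩ := h1
  obtain ⟨hwait, hstable⟩ := runs_wait (code := code) (only (trList [m + 1])) w w
  obtain ⟨n₂, hn₂⟩ := goes_clear (code := code) (only (trList [m + 1])) w
  have hd := hn₁.trans hwait
  have hlen : w.length = (g m).length := by rw [hw, List.length_map]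
  refine ⟨n₁ + (w.length + 1), n₁ + (w.length + 1) + 1 + n₂, by omega, ?_, ?_, ?_, by omega, ?_⟩
  · rw [show n₁ + (w.length + 1) + 1 + n₂ = n₂ + (1 + (n₁ + (w.length + 1))) by omega,
      Function.iterate_add_apply, Function.iterate_add_apply, hd.1]
    exact hn₂.1
  · rw [hd.1]
    rfl
  · intro j hj hne
    rcases Nat.lt_or_ge j (n₁ + (w.length + 1)) with h | h
    · exact hd.2 j h
    · rw [show j = (j - (n₁ + (w.length + 1)) - 1) + (1 + (n₁ + (w.length + 1))) by omega,
        Function.iterate_add_apply, Function.iterate_add_apply, hd.1]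
      exact hn₂.2 _ (by omega)
  · intro j hj1 hj2
    rw [show j = (j - n₁) + n₁ by omega, Function.iterate_add_apply, hn₁.1]
    exact hstable _ (by omega)

theorem prefix_sound {g : ℕ → List (Fin b)} (hg : Decodes code g) (m : ℕ) :
    ∃ N, m ≤ N ∧ (prog code b).cfg N = roundStart code b m ∧
      ∀ k, k < N → mark ((prog code b).cfg k).1 = true → ∃ m', ∀ j, k - (g m').length ≤ j → j ≤ k →
        ((prog code b).cfg j).2 (Sum.inr Extra.out) = (g m').map Sum.inr := by
  induction m with
  | zero =>
    refine ⟨1, Nat.zero_le _, ?_, fun k hk hm => ?_⟩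
    · show ((Ctl.run (tr (entry code)) none : Ctl b), fun x => (one _ _ x).apply []) = _
      refine congrArg (Prod.mk _) (funext fun x => ?_)
      rcases x with k | e
      · cases k <;> simp [one, idle, stk, only, Cmd.apply]
      · cases e <;> simp [one, idle, stk, Cmd.apply]
    · obtain rfl : k = 0 := by omega
      cases hm
  | succ m ih =>
    obtain ⟨N, hmN, hcfg, hs⟩ := ih
    obtain ⟨d, n, hdn, hn, hd, hno, hlen, hst⟩ := round hg m
    have hshift : ∀ j, (prog code b).cfg (N + j) = (stp code)^[j] (roundStart code b m) := fun j => by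
      rw [← hcfg, cfg_iterate, cfg_iterate, add_comm N j, Function.iterate_add_apply]
    refine ⟨N + n, by omega, by rw [hshift, hn], fun k hk hm => ?_⟩
    rcases Nat.lt_or_ge k N with h | h
    · exact hs k h hm
    · obtain ⟨i, rfl⟩ := Nat.exists_eq_add_of_le h
      rw [hshift] at hm
      have hid : i = d := by
        by_contra hne
        rw [hno i (by omega) hne] at hm
        cases hm
      subst hid
      refine ⟨m, fun j hj1 hj2 => ?_⟩
      obtain ⟨l, rfl⟩ := Nat.exists_eq_add_of_le (show N ≤ j by omega)
      rw [hshift]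
      exact hst l (by omega) (by omega)

theorem prog_sound {g : ℕ → List (Fin b)} (hg : Decodes code g) (k : ℕ)
    (hm : mark ((prog code b).cfg k).1 = true) :
    ∃ m, ∀ j, k - (g m).length ≤ j → j ≤ k →
      ((prog code b).cfg j).2 (Sum.inr Extra.out) = (g m).map Sum.inr := by
  obtain ⟨N, hN, -, hs⟩ := prefix_sound hg (k + 1)
  exact hs k (by omega) hm

theorem prog_complete {g : ℕ → List (Fin b)} (hg : Decodes code g) (m : ℕ) :
    ∃ k, m ≤ k ∧ mark ((prog code b).cfg k).1 = true ∧
      ∀ j, k - (g m).length ≤ j → j ≤ k →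
        ((prog code b).cfg j).2 (Sum.inr Extra.out) = (g m).map Sum.inr := by
  obtain ⟨N, hN, hcfg, -⟩ := prefix_sound hg m
  obtain ⟨d, n, -, -, hd, -, hlen, hst⟩ := round hg m
  have hshift : ∀ j, (prog code b).cfg (N + j) = (stp code)^[j] (roundStart code b m) := fun j => by
    rw [← hcfg, cfg_iterate, cfg_iterate, add_comm N j, Function.iterate_add_apply]
  refine ⟨N + d, by omega, by rw [hshift]; exact hd, fun j hj1 hj2 => ?_⟩
  obtain ⟨l, rfl⟩ := Nat.exists_eq_add_of_le (show N ≤ j by omega)
  rw [hshift]
  exact hst l (by omega) (by omega)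

end Vale.Agent.P193.Machine
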