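import Vale.Agent.P193.Machine.Defs

/-!
P193, module W3: a synchronous array running a machine with finitely many stacks. Command `k` of
the machine reaches the cell `i` at time `3 * k + i`.
-/

namespace Vale.Agent.P193.Machine

/-- One command to one stack. -/
inductive Cmd (Γ : Type) : Type
  | keep
  | push (g : Γ)
  | pop
  deriving DecidableEq, Fintype

namespace Cmd

variable {Γ : Type}

/-- The effect on a stack. -/
def apply : Cmd Γ → List Γ → List Γ
  | keep, l => l
  | push g, l => g :: l
  | pop, l => l.tail

/-- The pushed symbol. -/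
def pushed : Cmd Γ → Option Γ
  | push g => some g
  | _ => none

/-- The new content of a cell, from the old one, the old one on the left and the one on the
right. -/
def cell : Cmd Γ → Option Γ → Option Γ → Option Γ → Option Γ
  | keep, v, _, _ => v
  | push _, _, l, _ => l
  | pop, _, _, r => r

theorem apply_zero (c : Cmd Γ) (l : List Γ) :
    (c.apply l)[0]? = c.cell l[0]? c.pushed l[1]? := by
  cases c <;> cases l <;> simp [apply, cell, pushed]

theorem apply_succ (c : Cmd Γ) (l : List Γ) (i : ℕ) :
    (c.apply l)[i + 1]? = c.cell l[i + 1]? l[i]? l[i + 2]? := by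
  cases c <;> cases l <;> simp [apply, cell]

theorem apply_length_le (c : Cmd Γ) (l : List Γ) : (c.apply l).length ≤ l.length + 1 := by
  cases c <;> simp [apply]
  omega

end Cmd

/-- A machine with finitely many stacks, giving one command to each stack at every step. -/
structure Prog (K Q Γ : Type) where
  /-- The first state. -/
  start : Q
  /-- The new state and the commands, from the state and the tops of the stacks. -/
  next : Q → (K → Option Γ) → Q × (K → Cmd Γ)

namespace Prog

variable {K Q Γ : Type} (P : Prog K Q Γ)

/-- The tops of the stacks. -/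
def tops (S : K → List Γ) : K → Option Γ := fun x => (S x)[0]?

/-- One step. -/
def stepFn (c : Q × (K → List Γ)) : Q × (K → List Γ) :=
  ((P.next c.1 (tops c.2)).1, fun x => ((P.next c.1 (tops c.2)).2 x).apply (c.2 x))

/-- The configurations, from empty stacks. -/
def cfg : ℕ → Q × (K → List Γ)
  | 0 => (P.start, fun _ => [])
  | k + 1 => P.stepFn (cfg k)

/-- The commands given at a step. -/
def cmds (k : ℕ) : K → Cmd Γ := (P.next (P.cfg k).1 (tops (P.cfg k).2)).2

theorem cfg_succ (k : ℕ) (x : K) :
    (P.cfg (k + 1)).2 x = (P.cmds k x).apply ((P.cfg k).2 x) := rfl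

theorem length_le (k : ℕ) (x : K) : ((P.cfg k).2 x).length ≤ k := by
  induction k with
  | zero => simp [cfg]
  | succ k ih =>
    rw [cfg_succ]
    exact ((P.cmds k x).apply_length_le _).trans (Nat.succ_le_succ ih)

end Prog

/-- The symbols of the array: the state and the phase (first cell only), the contents of the
stacks, and the passing commands with the contents they found. -/
@[ext]
structure Sym (K Q Γ : Type) where
  /-- The state and the phase. -/
  ctrl : Option (Q × Fin 3)
  /-- The contents. -/
  vals : K → Option Γ
  /-- The commands. -/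
  wave : Option ((K → Cmd Γ) × (K → Option Γ))

namespace Sym

variable {K Q Γ : Type}

/-- An unused cell. -/
def blank : Sym K Q Γ := ⟨none, fun _ => none, none⟩

noncomputable instance [Fintype K] [Fintype Q] [Fintype Γ] : Fintype (Sym K Q Γ) :=
  @Fintype.ofFinite _ (Finite.of_injective (β := Option (Q × Fin 3) × (K → Option Γ) ×
    Option ((K → Cmd Γ) × (K → Option Γ))) (fun s => (s.ctrl, s.vals, s.wave)) fun a b h => by
      simp only [Prod.mk.injEq] at h
      exact Sym.ext h.1 h.2.1 h.2.2)

end Sym

namespace Prog

variable {K Q Γ : Type} (P : Prog K Q Γ)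

/-- The rule of the array. -/
def rule (l : Option (Sym K Q Γ)) (a : Sym K Q Γ) (r : Option (Sym K Q Γ)) : Sym K Q Γ :=
  let incoming : Option ((K → Cmd Γ) × (K → Option Γ)) :=
    match l with
    | some s => s.wave
    | none => match a.ctrl with
      | some (q, p) => if p = 0 then
          some ((P.next q a.vals).2, fun x => ((P.next q a.vals).2 x).pushed) else none
      | none => none
  { ctrl := match l with
      | some _ => none
      | none => a.ctrl.map fun qp =>
          (if qp.2 = 0 then (P.next qp.1 a.vals).1 else qp.1, qp.2 + 1)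
    vals := fun x => match incoming with
      | some w => (w.1 x).cell (a.vals x) (w.2 x) ((r.getD Sym.blank).vals x)
      | none => a.vals x
    wave := incoming.map fun w => (w.1, a.vals) }

/-- The number of commands that have passed the cell `i` at time `t`. -/
def done (i t : ℕ) : ℕ := (t - i + 2) / 3

/-- The symbol of the cell `i` at time `t`. -/
def expected (t i : ℕ) : Sym K Q Γ where
  ctrl := if i = 0 then
    some ((P.cfg (done 0 t)).1, ⟨t % 3, Nat.mod_lt _ (by norm_num)⟩) else none
  vals x := ((P.cfg (done i t)).2 x)[i]?
  wave := if i + 1 ≤ t ∧ (t - i - 1) % 3 = 0 then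
    some (P.cmds ((t - i - 1) / 3), fun x => ((P.cfg ((t - i - 1) / 3)).2 x)[i]?) else none

theorem expected_fresh {t i : ℕ} (h : t < i) : P.expected t i = Sym.blank := by
  have h0 : done i t = 0 := by simp only [done]; omega
  refine Sym.ext ?_ ?_ ?_
  · simp only [expected, Sym.blank]
    rw [if_neg (by omega)]
  · funext x
    simp [expected, Sym.blank, h0, cfg]
  · simp only [expected, Sym.blank]
    rw [if_neg (by omega)]

theorem fin3_add_one (t : ℕ) :
    (⟨t % 3, Nat.mod_lt _ (by norm_num)⟩ : Fin 3) + 1 =
      ⟨(t + 1) % 3, Nat.mod_lt _ (by norm_num)⟩ := by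
  apply Fin.ext
  simp only [Fin.val_add, Fin.val_one]
  omega

theorem expected_zero (t : ℕ) :
    P.rule none (P.expected t 0) (some (P.expected t 1)) = P.expected (t + 1) 0 := by
  by_cases h : t % 3 = 0
  · have hd0 : done 0 t = t / 3 := by simp only [done]; omega
    have hd1 : done 0 (t + 1) = t / 3 + 1 := by simp only [done]; omega
    have hd2 : done 1 t = t / 3 := by simp only [done]; omega
    have hp : (⟨t % 3, Nat.mod_lt _ (by norm_num)⟩ : Fin 3) = 0 := Fin.ext (by simpa using h)
    have hw : (t + 1 - 0 - 1) / 3 = t / 3 := by omega
    refine Sym.ext ?_ ?_ ?_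
    · simp only [rule, expected, if_true, Option.map_some, hd0, hd1, hp]
      rw [← fin3_add_one t, hp]
      rfl
    · funext x
      simp only [rule, expected, if_true, hd0, hd1, hd2, hp, Option.getD_some, cfg_succ,
        Cmd.apply_zero]
      rfl
    · simp only [rule, expected, if_true, hd0, hp, Option.map_some, hw,
        show 0 + 1 ≤ t + 1 ∧ (t + 1 - 0 - 1) % 3 = 0 from ⟨by omega, by omega⟩]
      rfl
  · have hd1 : done 0 (t + 1) = done 0 t := by simp only [done]; omega
    have hp : (⟨t % 3, Nat.mod_lt _ (by norm_num)⟩ : Fin 3) ≠ 0 := fun hc =>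
      h (by simpa using congrArg Fin.val hc)
    refine Sym.ext ?_ ?_ ?_
    · simp only [rule, expected, if_true, Option.map_some, if_neg hp, hd1, fin3_add_one]
    · funext x
      simp only [rule, expected, if_true, if_neg hp, hd1]
    · simp only [rule, expected, if_true, if_neg hp]
      rw [if_neg (by omega)]
      rfl

theorem expected_succ (t i : ℕ) :
    P.rule (some (P.expected t i)) (P.expected t (i + 1)) (some (P.expected t (i + 2))) =
      P.expected (t + 1) (i + 1) := by
  by_cases h : i + 1 ≤ t ∧ (t - i - 1) % 3 = 0
  · have hd0 : done (i + 1) t = (t - i - 1) / 3 := by simp only [done]; omega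
    have hd1 : done (i + 1) (t + 1) = (t - i - 1) / 3 + 1 := by simp only [done]; omega
    have hd2 : done (i + 2) t = (t - i - 1) / 3 := by simp only [done]; omega
    have hw : (t + 1 - (i + 1) - 1) / 3 = (t - i - 1) / 3 := by omega
    refine Sym.ext ?_ ?_ ?_
    · simp [rule, expected]
    · funext x
      simp only [rule, expected, if_pos h, hd0, hd1, hd2, Option.getD_some, cfg_succ,
        Cmd.apply_succ]
    · simp only [rule, expected, if_pos h, hd0, hw, Option.map_some,
        show i + 1 + 1 ≤ t + 1 ∧ (t + 1 - (i + 1) - 1) % 3 = 0 from ⟨by omega, by omega⟩,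
        and_self, if_true]
  · have hd1 : done (i + 1) (t + 1) = done (i + 1) t := by
      simp only [done]
      omega
    refine Sym.ext ?_ ?_ ?_
    · simp [rule, expected]
    · funext x
      simp only [rule, expected, if_neg h, hd1]
    · simp only [rule, expected, if_neg h]
      rw [if_neg (by omega)]
      rfl

theorem rule_none (l : Option (Sym K Q Γ)) (a : Sym K Q Γ) :
    P.rule l a none = P.rule l a (some Sym.blank) := rfl

theorem rule_blank :
    P.rule (some Sym.blank) Sym.blank (some Sym.blank) = Sym.blank := rfl

/-- An array reading the stack `out` in the states satisfying `mark`. -/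
noncomputable def toRule {β : Type} [Fintype K] [Fintype Q] [Fintype Γ] (out : K) (mark : Q → Bool)
    (dec : Γ → Option β) : EnumRule β where
  α := Sym K Q Γ
  decEq := Classical.decEq _
  blank := Sym.blank
  start := ⟨some (P.start, 0), fun _ => none, none⟩
  step := P.rule
  emit s := match s.ctrl with
    | some (q, p) => mark q && decide (p = 0)
    | none => false
  read s := (s.vals out).bind dec

variable {β : Type} [Fintype K] [Fintype Q] [Fintype Γ] (out : K) (mark : Q → Bool)
  (dec : Γ → Option β)

theorem row_eq : ∀ t i, (P.toRule out mark dec).row t i = P.expected t i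
  | 0, i => by
    show (if i = 0 then _ else _) = _
    by_cases h : i = 0
    · subst h
      rw [if_pos rfl]
      refine Sym.ext ?_ ?_ ?_
      · simp only [toRule, expected, if_true, done]
        rfl
      · funext x
        simp [toRule, expected, done, cfg]
      · simp [toRule, expected]
    · rw [if_neg h]
      exact (P.expected_fresh (by omega)).symm
  | t + 1, i => by
    show P.rule _ _ _ = _
    cases i with
    | zero =>
      rw [if_pos rfl, row_eq t 0, row_eq t 1]
      exact P.expected_zero t
    | succ i =>
      rw [if_neg (Nat.succ_ne_zero i), Nat.succ_sub_one, row_eq t i, row_eq t (i + 1),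
        row_eq t (i + 2)]
      exact P.expected_succ t i

theorem emit_iff (t i : ℕ) :
    (P.toRule out mark dec).emit ((P.toRule out mark dec).row t i) = true ↔
      i = 0 ∧ t % 3 = 0 ∧ mark (P.cfg (t / 3)).1 = true := by
  rw [row_eq]
  by_cases h : i = 0
  · subst h
    simp only [toRule, expected, if_true, Bool.and_eq_true, decide_eq_true_eq, Fin.ext_iff,
      Fin.val_zero, true_and]
    constructor
    · rintro ⟨h1, h2⟩
      exact ⟨h2, by rwa [show t / 3 = done 0 t by simp only [done]; omega]⟩
    · rintro ⟨h2, h1⟩
      exact ⟨by rwa [show done 0 t = t / 3 by simp only [done]; omega], h2⟩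
  · simp [toRule, expected, h]

theorem read_eq (t i : ℕ) :
    (P.toRule out mark dec).read ((P.toRule out mark dec).row t i) =
      (((P.cfg (done i t)).2 out)[i]?).bind dec := by
  rw [row_eq]
  rfl

/-- The array enumerates the words of `e` if the machine does so on the stack `out`, holding each
of them long enough before its mark. -/
theorem toRule_enumerates (enc : β → Γ) (hdec : ∀ g, dec (enc g) = some g) (e : ℕ → List β)
    (hsound : ∀ k, mark (P.cfg k).1 = true → ∃ n,
      ∀ j, k - (e n).length ≤ j → j ≤ k → (P.cfg j).2 out = (e n).map enc)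
    (hcomplete : ∀ n T, ∃ k, T ≤ k ∧ mark (P.cfg k).1 = true ∧
      ∀ j, k - (e n).length ≤ j → j ≤ k → (P.cfg j).2 out = (e n).map enc) :
    (P.toRule out mark dec).Enumerates e := by
  have shows : ∀ k (w : List β), (∀ j, k - w.length ≤ j → j ≤ k → (P.cfg j).2 out = w.map enc) →
      w.length ≤ 3 * k ∧
        (P.toRule out mark dec).Shows ((P.toRule out mark dec).row (3 * k)) w := by
    intro k w hw
    refine ⟨?_, fun i hi => ?_⟩
    · have h := P.length_le k out
      rw [hw k (by omega) le_rfl, List.length_map] at h
      omega
    · rw [read_eq, hw _ (by simp only [done]; omega) (by simp only [done]; omega),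
        List.getElem?_map]
      cases w[i]? <;> simp [hdec]
  refine
    { step_none := P.rule_none
      step_blank := P.rule_blank
      read_blank := rfl
      fresh := fun t i h => (P.row_eq out mark dec t i).trans (P.expected_fresh h)
      emit_first := fun t i h => ((P.emit_iff out mark dec t i).1 h).1
      sound := fun t h => ?_
      complete := fun n T => ?_ }
  · obtain ⟨-, h3, hm⟩ := (P.emit_iff out mark dec t 0).1 h
    obtain ⟨n, hn⟩ := hsound _ hm
    obtain ⟨h1, h2⟩ := shows _ _ hn
    rw [show 3 * (t / 3) = t by omega] at h1 h2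
    exact ⟨n, h1, h2⟩
  · obtain ⟨k, hk, hm, hn⟩ := hcomplete n T
    refine ⟨3 * k, by omega, (P.emit_iff out mark dec _ 0).2 ⟨rfl, by omega, ?_⟩, (shows _ _ hn).2⟩
    rwa [show 3 * k / 3 = k by omega]

end Prog

end Vale.Agent.P193.Machine
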